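import Vale.Agent.P277Z.Ps.Psd
import Vale.Agent.P277Z.Pos.Jo
import Vale.Agent.P277Z.Van.Vol

/-!
# P277Z: open neighbourhoods of the fibre as manifolds; global generation
-/

set_option linter.all false

open scoped Manifold ContDiff Topology ComplexOrder
open Set Filter
open Vale.Agent.P272.K Vale.Agent.P301.H599 Vale.Agent.P285Z
open Vale.Agent.P285.H281.FD (Bd)
open Vale.Agent.P301.H98 (nrm)
open Vale.Agent.P301.H862 (powL)
open TopologicalSpace (Opens)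

noncomputable section

namespace Vale.Agent.P277Z.Ps

open Pos Van

section opn

variable {n : ℕ} {W : Type} [TopologicalSpace W] [ChartedSpace (Cm n) W] {O : Opens W}

theorem chart_of {e : Chart n O} {x : O} (he : At e x) : ∃ e' : Chart n W, At e' x.1 ∧
    e x = e' x.1 ∧ ∀ᶠ z in 𝓝 (e x), (e.symm z).1 = e'.symm z := by
  obtain ⟨y, rfl⟩ := Opens.chart_eq ⟨x⟩ he.1
  have h2 := he.2
  refine ⟨chartAt (Cm n) y.1, ⟨chart_mem_atlas _ _, ?_⟩, rfl, ?_⟩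
  · rwa [OpenPartialHomeomorph.subtypeRestr_source] at h2
  · filter_upwards [he.nhds_target] with z hz
    exact (chartAt (Cm n) y.1).subtypeRestr_symm_apply ⟨x⟩ hz

theorem chart_fn {e : Chart n O} {x : O} (he : At e x) : ∃ e' : Chart n W, At e' x.1 ∧
    e x = e' x.1 ∧ ∀ (Z : Type) (u : W → Z),
      (fun z => u (e'.symm z)) =ᶠ[𝓝 (e' x.1)] fun z => u (e.symm z).1 := by
  obtain ⟨e', h1, h2, h3⟩ := chart_of he
  exact ⟨e', h1, h2, fun Z u => h2 ▸ h3.mono fun z hz => by simp only [hz]⟩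

theorem hol_res {a : W → ℂ} {x : O} (h : Hol n a x.1) : Hol n (fun y : O => a y.1) x :=
  fun e he => by
    obtain ⟨e', h1, h2, h3⟩ := chart_fn he
    rw [h2]
    exact (h e' h1).congr (h3 _ a)

theorem spsh_res {u : W → ℝ} {x : O} (h : Spsh n u x.1) : Spsh n (fun y : O => u y.1) x :=
  fun e he => by
    obtain ⟨e', h1, h2, h3⟩ := chart_fn he
    rw [h2, ← cHess_congr (h3 _ u)]
    exact ⟨(h e' h1).1.congr_of_eventuallyEq (h3 _ u).symm, (h e' h1).2⟩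

/-- extension by zero -/
def ext (b : O → ℂ) : W → ℂ := Function.extend Subtype.val b 0

@[simp] theorem ext_val (b : O → ℂ) (x : O) : ext b x.1 = b x :=
  Subtype.val_injective.extend_apply _ _ _

theorem hol_ext [IsManifold 𝓘(ℂ, Cm n) ω W] {b : O → ℂ} {x : O} (h : Hol n b x) :
    Hol n (ext b) x.1 := by
  obtain ⟨e', h1, h2, h3⟩ := chart_fn (at_chartAt (n := n) x)
  refine Hol.of_chart h1 (AnalyticAt.congr ?_ (h3 _ (ext b)).symm)
  simpa only [ext_val, ← h2] using h _ (at_chartAt x)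

end opn

variable {n N : ℕ} {G : Geo n N}

/-- the restriction of a line bundle to an open set -/
def resL {L : Bd G.W} (hL : G.LB L) (O : Opens G.W) (hO : ∀ y ∈ O, ∃ i, y ∈ L.U i) :
    LineBundle n O L.ι where
  U i := Subtype.val ⁻¹' L.U i
  isOpen i := (hL.isOpen i).preimage continuous_subtype_val
  cover x := hO x.1 x.2
  g i j x := L.g i j x.1
  holo i j e x he hi hj := hol_res (hL.holo i j x.1 hi hj) e he
  ne_zero i j x := hL.ne_zero i j x.1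
  cocycle i j k x := hL.cocycle i j k x.1

theorem LB_near {L : Bd G.W} (hL : G.LB L) : ∀ᶠ y in 𝓝ˢ G.F, ∃ i, y ∈ L.U i :=
  eventually_nhdsSet_iff_forall.2 fun x hx =>
    let ⟨i, hi⟩ := hL.cover x hx
    mem_of_superset ((hL.isOpen i).mem_nhds hi) fun _ hy => ⟨i, hy⟩

theorem LB_mul {L L' : Bd G.W} (h : G.LB L) (h' : G.LB L') : G.LB (L.mul L') where
  isOpen i := (h.isOpen i.1).inter (h'.isOpen i.2)
  cover x hx :=
    let ⟨i, hi⟩ := h.cover x hx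
    let ⟨j, hj⟩ := h'.cover x hx
    ⟨(i, j), hi, hj⟩
  holo i j x hi hj e he := (h.holo _ _ x hi.1 hj.1 e he).mul (h'.holo _ _ x hi.2 hj.2 e he)
  ne_zero i j x hi hj := mul_ne_zero (h.ne_zero _ _ x hi.1 hj.1) (h'.ne_zero _ _ x hi.2 hj.2)
  cocycle i j k x hi hj hk := by
    show L.g _ _ x * L'.g _ _ x * (L.g _ _ x * L'.g _ _ x) = L.g _ _ x * L'.g _ _ x
    rw [← h.cocycle i.1 j.1 k.1 x hi.1 hj.1 hk.1, ← h'.cocycle i.2 j.2 k.2 x hi.2 hj.2 hk.2]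
    ring

theorem LB_pow {L : Bd G.W} (h : G.LB L) (m : ℕ) : G.LB (L.pow m) where
  isOpen := h.isOpen
  cover := h.cover
  holo i j x hi hj e he := (h.holo _ _ x hi hj e he).pow m
  ne_zero i j x hi hj := pow_ne_zero m (h.ne_zero _ _ x hi hj)
  cocycle i j k x hi hj hk := by
    show L.g _ _ x ^ m * L.g _ _ x ^ m = L.g _ _ x ^ m
    rw [← mul_pow, h.cocycle i j k x hi hj hk]

/-- a section over an open subset of `O` which contains `F` is a section near `F` -/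
theorem sec_ext {L : Bd G.W} {O : Opens G.W} {M : LineBundle n O L.ι}
    (hU : ∀ i y, y ∈ M.U i ↔ y.1 ∈ L.U i) (hg : ∀ i j y, M.g i j y = L.g i j y.1) {Ω : Set O}
    (hΩ : IsOpen Ω) (hF : G.F ⊆ Subtype.val '' Ω) {s : L.ι → O → ℂ} (hs : SecOn M Ω s) :
    G.Sec L fun i => ext (s i) := by
  filter_upwards [(O.isOpen.isOpenMap_subtype_val Ω hΩ).mem_nhdsSet.2 hF]
  rintro _ ⟨y, hy, rfl⟩ i hi
  refine ⟨hol_ext fun e he => hs.holo i e y he ((hU i y).2 hi) hy, fun j hj => ?_⟩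
  rw [ext_val, ext_val, ← hg]
  exact hs.change i j y ((hU i y).2 hi) ((hU j y).2 hj) hy

variable (G) in
/-- neighbourhoods with a plurisubharmonic function with a compact sublevel set -/
theorem exists_nb {U : Set G.W} (hU : U ∈ 𝓝ˢ G.F) : ∃ (O : Opens G.W) (c : ℝ),
    G.F ⊆ O ∧ (O : Set G.W) ⊆ U ∧ 0 < c ∧ (∀ y ∈ O, ∀ i, Hol n (fun y => G.π y i) y) ∧
    (∀ y ∈ O, G.π y = 0 ↔ y ∈ G.F) ∧ IsCompact {y : O | ∑ i, ‖G.π y i‖ ^ 2 ≤ c} := by
  obtain ⟨O, r, hO, hF, hOU, hr, h1, h2, h3, -⟩ := nbh n N G U hU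
  refine ⟨⟨O, hO⟩, (r / 2) ^ 2, hF, hOU, by positivity, h1, fun y hy => (h2 y hy).2, ?_⟩
  have hb : {w : Cm N | ∑ i, ‖w i‖ ^ 2 ≤ (r / 2) ^ 2} ⊆ Metric.closedBall 0 (r / 2) := fun w hw => by
    refine mem_closedBall_zero_iff.2 ((pi_norm_le_iff_of_nonneg (by positivity)).2 fun i => ?_)
    exact (abs_le_of_sq_le_sq' ((Finset.single_le_sum (f := fun i => ‖w i‖ ^ 2)
      (fun _ _ => by positivity) (Finset.mem_univ i)).trans hw) (by positivity)).2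
  have h4 := h3 _ (hb.trans (Metric.closedBall_subset_ball (by linarith)))
    ((isCompact_closedBall _ _).of_isClosed_subset (isClosed_le (by fun_prop) continuous_const) hb)
  rw [Subtype.isCompact_iff]
  have e : Subtype.val '' {y : (⟨O, hO⟩ : Opens G.W) | ∑ i, ‖G.π y i‖ ^ 2 ≤ (r / 2) ^ 2} =
      O ∩ G.π ⁻¹' {w : Cm N | ∑ i, ‖w i‖ ^ 2 ≤ (r / 2) ^ 2} := by
    ext y
    exact ⟨fun ⟨z, hz, e⟩ => e ▸ ⟨z.2, hz⟩, fun hy => ⟨⟨y, hy.1⟩, hy.2, rfl⟩⟩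
  exact e ▸ h4

theorem sigmaCompact (O : Opens G.W) : SigmaCompactSpace O := by
  have : LocallyCompactSpace O := ChartedSpace.locallyCompactSpace (Cm n) O
  infer_instance

theorem ggf_of (h : GGStmt) : GGF := by
  intro n N G A L ⟨ψ, hA, hψ, hc⟩ hL
  obtain ⟨O, c, hF, hO, h0, h1, h2, h3⟩ := exists_nb G ((LB_near hA).and (LB_near hL))
  have := sigmaCompact O
  borelize ↥O
  obtain ⟨w, hw⟩ := exists_isHermitian (d := n) (X := O)
  obtain ⟨μ, hμ⟩ := exists_isVol hw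
  set A' := resL hA O fun y hy => (hO hy).1
  set L' := resL hL O fun y hy => (hO hy).2
  obtain ⟨ρ, hρ⟩ := exists_isMetric L'
  have hσ : IsMetric A' fun i y => ψ i y.1 :=
    ⟨fun i e x he hi => (spsh_res (hψ i x.1 hi) e he).1, fun i j x hi hj => hc i j x.1 hi hj⟩
  have hE := JoAux.exh_sub (d := n) (t := fun y : O => ∑ i, ‖G.π y i‖ ^ 2) (c := c) isOpen_univ
    (fun y _ => psdAt_sq fun i => hol_res (h1 y y.2 i)) (by simpa using h3)
  obtain ⟨k₀, hk⟩ := h n O w μ hw hμ _ _ hE _ A' _ hσ (fun e x he _ => by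
    obtain ⟨i, hi⟩ := A'.cover x
    rw [curvature_eq hσ he hi]
    exact (spsh_res (hψ i x.1 hi) e he).2) _ L' ρ hρ (c⁻¹ + 1)
  have h4 : ∀ y : O, y.1 ∈ G.F → (y ∈ univ ∧ ∑ i, ‖G.π y i‖ ^ 2 < c) ∧
      (c - ∑ i, ‖G.π y i‖ ^ 2)⁻¹ < c⁻¹ + 1 := fun y hy => by
    simp [(h2 y y.2).2 hy, h0]
  refine ⟨k₀, fun m hm x hx => ?_⟩
  obtain ⟨s, hs, hs0⟩ := hk m hm ⟨x, hF hx⟩ (h4 _ hx).1 (h4 _ hx).2
  have hΩ : IsOpen {y : O | (y ∈ univ ∧ ∑ i, ‖G.π y i‖ ^ 2 < c) ∧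
      (c - ∑ i, ‖G.π y i‖ ^ 2)⁻¹ < c⁻¹ + 1} := by
    refine isOpen_iff_mem_nhds.2 fun y hy => inter_mem (hE.isOpen.mem_nhds hy.1) ?_
    exact (continuousAt_of_chart (a := fun y : O => (c - ∑ i, ‖G.π y i‖ ^ 2)⁻¹) (at_chartAt y)
      (hE.sm _ y (at_chartAt y) hy.1).continuousAt).eventually (Iio_mem_nhds hy.2)
  refine ⟨fun i => ext (s i), sec_ext (L := L.mul (A.pow m)) (M := mulB L' (powL A' m))
    (fun _ _ => Iff.rfl) (fun _ _ _ => rfl) hΩ (fun y hy => ⟨⟨y, hF hy⟩, h4 _ hy, rfl⟩) hs,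
    fun i hi h5 => hs0 ?_⟩
  have h6 : s i ⟨x, hF hx⟩ = 0 := (ext_val (s i) ⟨x, hF hx⟩).symm.trans h5
  unfold nrm
  rw [hs.change _ i _ ((mulB L' (powL A' m)).cover _).choose_spec hi (h4 _ hx), h6]
  simp

end Vale.Agent.P277Z.Ps
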