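import Vale.Agent.P277Z.Ps.Psd
import Vale.Agent.P277Z.Bir.Alg
import Vale.Agent.P277Z.Lo.Base
import Vale.Agent.P277Z.Pos.Kah
import Vale.Agent.P272.K.N.Det

/-!
# P277Z: metrics on divisors
-/

set_option linter.all false

open scoped Manifold ContDiff Topology ComplexOrder
open Set Filter
open Vale.Agent.P272.K
open Vale.Agent.P297 (Place)
open Vale.Agent.P297Z

noncomputable section

namespace Vale.Agent.P277Z.Ps

open Pos Bi

section mfd

variable {n : ℕ} {W : Type} [TopologicalSpace W] [ChartedSpace (Cm n) W] {u v : W → ℝ} {x : W}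
  {c : ℝ}

variable (n) in
/-- `u` is smooth at `x` -/
def SmAt (u : W → ℝ) (x : W) : Prop :=
  ∀ e : Chart n W, At e x → ContDiffAt ℝ ∞ (fun z => u (e.symm z)) (e x)

theorem spsh_psd (h : Spsh n u x) : PsdAt n u x := fun e he => ⟨(h e he).1, (h e he).2.posSemidef⟩

theorem flat_psd (h : FlatAt n u x) : PsdAt n u x :=
  fun e he => ⟨(h e he).1, (h e he).2 ▸ Matrix.PosSemidef.zero⟩

theorem psd_sm (h : PsdAt n u x) : SmAt n u x := fun e he => (h e he).1

theorem spsh_sm (h : Spsh n u x) : SmAt n u x := fun e he => (h e he).1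

theorem sm_add (h : SmAt n u x) (h' : SmAt n v x) : SmAt n (fun y => u y + v y) x :=
  fun e he => (h e he).add (h' e he)

theorem sm_smul (c : ℝ) (h : SmAt n u x) : SmAt n (fun y => c * u y) x :=
  fun e he => contDiffAt_const.mul (h e he)

theorem spsh_add (h : Spsh n u x) (h' : PsdAt n v x) : Spsh n (fun y => u y + v y) x :=
  fun e he => ⟨(h e he).1.add (h' e he).1, by
    rw [cHess_add (two (h e he).1) (two (h' e he).1)]
    exact (h e he).2.add_posSemidef (h' e he).2⟩

theorem psd_add (h : PsdAt n u x) (h' : PsdAt n v x) : PsdAt n (fun y => u y + v y) x :=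
  fun e he => ⟨(h e he).1.add (h' e he).1, by
    rw [cHess_add (two (h e he).1) (two (h' e he).1)]
    exact (h e he).2.add (h' e he).2⟩

theorem spsh_smul (hc : 0 < c) (h : Spsh n u x) : Spsh n (fun y => c * u y) x :=
  fun e he => ⟨contDiffAt_const.mul (h e he).1, by
    rw [cHess_const_mul c (two (h e he).1)]
    exact (h e he).2.smul (Complex.zero_lt_real.2 hc)⟩

theorem psd_mul (hc : 0 ≤ c) (h : PsdAt n u x) : PsdAt n (fun y => c * u y) x :=
  fun e he => ⟨contDiffAt_const.mul (h e he).1, by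
    rw [cHess_const_mul c (two (h e he).1)]
    exact (h e he).2.smul (Complex.zero_le_real.2 hc)⟩

theorem flat_const (c : ℝ) : FlatAt n (fun _ : W => c) x :=
  fun _ _ => ⟨contDiffAt_const, C2.cHess_const c⟩

theorem flat_add (h : FlatAt n u x) (h' : FlatAt n v x) : FlatAt n (fun y => u y + v y) x :=
  fun e he => ⟨(h e he).1.add (h' e he).1, by
    rw [cHess_add (two (h e he).1) (two (h' e he).1), (h e he).2, (h' e he).2, add_zero]⟩

theorem flat_smul (c : ℝ) (h : FlatAt n u x) : FlatAt n (fun y => c * u y) x :=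
  fun e he => ⟨contDiffAt_const.mul (h e he).1, by
    rw [cHess_const_mul c (two (h e he).1), (h e he).2, smul_zero]⟩

theorem flat_sum {ι : Type*} (T : Finset ι) {u : ι → W → ℝ} (h : ∀ i ∈ T, FlatAt n (u i) x) :
    FlatAt n (fun y => ∑ i ∈ T, u i y) x := by
  classical
  induction T using Finset.induction_on with
  | empty => simpa using flat_const 0
  | insert i T hi ih =>
    simp only [Finset.sum_insert hi]
    exact flat_add (h i (by simp)) (ih fun j hj => h j (by simp [hj]))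

variable [IsManifold 𝓘(ℂ, Cm n) ω W]

theorem spsh_of_chart {e : Chart n W} (he : At e x) (hs : SmAt n u x)
    (h : (cHess (fun z => u (e.symm z)) (e x)).PosDef) : Spsh n u x := fun e' he' =>
  ⟨hs e' he', by
    rw [cHess_chart he' he (two (hs e he))]
    exact posDef_form h (jacM_isUnit he' he)⟩

/-- strict plurisubharmonicity is an open condition -/
theorem spsh_open (hu : ∀ᶠ y in 𝓝 x, Spsh n u y) (hv : ∀ᶠ y in 𝓝 x, SmAt n v y) :
    ∀ᶠ p : ℝ × W in 𝓝 (0, x), Spsh n (fun y => u y + p.1 * v y) p.2 := by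
  have he := at_chartAt (n := n) x
  set e := chartAt (Cm n) x
  obtain ⟨ε, hε, h⟩ := N.posDef_of_near (hu.self_of_nhds e he).2
  have h1 : ContinuousAt (fun p : ℝ × W => e p.2) (0, x) :=
    (e.continuousAt he.2).comp continuousAt_snd
  have h2 : ∀ i j, ∀ᶠ p : ℝ × W in 𝓝 (0, x), ‖(cHess (fun z => u (e.symm z)) (e p.2) +
      (p.1 : ℂ) • cHess (fun z => v (e.symm z)) (e p.2)) i j -
        cHess (fun z => u (e.symm z)) (e x) i j‖ ≤ ε := fun i j => by
    have k1 := (INT.smooth_cHess (hu.self_of_nhds e he).1 i j).continuousAt.comp_of_eq h1 rfl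
    have k2 := (INT.smooth_cHess (hv.self_of_nhds e he) i j).continuousAt.comp_of_eq h1 rfl
    have k3 := ((k1.add ((Complex.continuous_ofReal.continuousAt.comp continuousAt_fst).mul
      k2)).sub (continuousAt_const (y := cHess (fun z => u (e.symm z)) (e x) i j))).norm
    exact k3.eventually (Iic_mem_nhds (by simpa using hε))
  filter_upwards [eventually_all.2 fun i => eventually_all.2 (h2 i), continuousAt_snd.eventually hu,
    continuousAt_snd.eventually hv, continuousAt_snd.eventually (e.open_source.mem_nhds he.2)]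
    with p k1 k2 k3 k4
  have k5 : At e p.2 := ⟨he.1, k4⟩
  have k6 := sm_add (spsh_sm k2) (sm_smul p.1 k3)
  refine spsh_of_chart k5 k6 (h _ (cHess_isHermitian (two (k6 e k5))) ?_)
  rwa [cHess_add (two (k2 e k5).1) (two (sm_smul p.1 k3 e k5)), cHess_const_mul _ (two (k3 e k5))]

end mfd

variable {n N : ℕ} {K : Type} [Field K] [Algebra ℂ K] {M : Mdl n N K} {A B D E : Div K}
  {Q Q' Q'' : (M.W → ℝ) → M.W → Prop}

theorem lg_eq_sum (x : M.F) (D : Div K) {T : Finset (Place K)} (h : D.support ⊆ T) (y : M.W) :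
    M.lg x D y = ∑ P ∈ T, D P * Real.log (‖M.val (M.eqn x P) y‖ ^ 2) :=
  Finsupp.sum_of_support_subset _ h _ fun _ _ => zero_mul _

theorem lg_add (x : M.F) (D E : Div K) (y : M.W) : M.lg x (D + E) y = M.lg x D y + M.lg x E y :=
  Finsupp.sum_add_index' (fun _ => zero_mul _) fun _ _ _ => add_mul _ _ _

theorem lg_smul (x : M.F) (c : ℝ) (D : Div K) (y : M.W) : M.lg x (c • D) y = c * M.lg x D y := by
  rw [lg_eq_sum x _ Finsupp.support_smul, lg_eq_sum x D subset_rfl, Finset.mul_sum]
  exact Finset.sum_congr rfl fun P _ => by simp [mul_assoc]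

theorem lg_congr {x : M.F} (h : ∀ P, M.On x P → D P = E P) (y : M.W) :
    M.lg x D y = M.lg x E y := by
  classical
  rw [lg_eq_sum x D (T := D.support ∪ E.support) Finset.subset_union_left,
    lg_eq_sum x E (T := D.support ∪ E.support) Finset.subset_union_right]
  refine Finset.sum_congr rfl fun P _ => ?_
  by_cases hP : M.On x P
  · rw [h P hP]
  · simp [eqn_of_not hP, M.val_one]

/-- the local equation of the integral divisor `D` with the coefficients `k` -/
def eqD (x : M.F) (D : Div K) (k : Place K → ℤ) : K := ∏ P ∈ D.support, M.eqn x P ^ k P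

theorem eqD_ne (x : M.F) (D : Div K) (k : Place K → ℤ) : eqD x D k ≠ 0 :=
  Finset.prod_ne_zero_iff.2 fun P _ => zpow_ne_zero _ (eqn_ne x P)

theorem ord_eqD (hL : Loc M) {x : M.F} {k : Place K → ℤ} (hk : ∀ P, D P = k P) {R : Place K}
    (hR : M.On x R) : (R.ord (eqD x D k) : ℝ) = D R := by
  classical
  rw [eqD, ord_prod R _ _ fun P _ => zpow_ne_zero _ (eqn_ne x P),
    Finset.sum_eq_single R (fun P _ hP => by simp [Pl.ord_zpow, ord_eqn hL hR, hP]) fun h => ?_]
  · simp [Pl.ord_zpow, ord_eqn hL hR, hk]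
  · have h2 := Finsupp.notMem_support_iff.1 h
    rw [hk] at h2
    have h3 : k R = 0 := by exact_mod_cast h2
    simp [h3]

theorem lg_eqD (x : M.F) {k : Place K → ℤ} (hk : ∀ P, D P = k P) :
    ∀ᶠ y in gen {(x : M.W)}, M.lg x D y = Real.log (‖M.val (eqD x D k) y‖ ^ 2) := by
  filter_upwards [M.at_pt (M.val_prod D.support fun P => M.eqn x P ^ k P) x,
    (eventually_all_finset D.support).2 fun P _ =>
      M.at_pt ((M.val_zpow (M.eqn x P) (k P)).and (M.val_ne (eqn_ne x P))) x] with y h1 h2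
  rw [eqD, h1, lg_eq_sum x D subset_rfl, norm_prod, ← Finset.prod_pow, Real.log_prod fun P hP => by
    rw [(h2 P hP).1]
    exact pow_ne_zero _ (norm_ne_zero_iff.2 (zpow_ne_zero _ (h2 P hP).2))]
  refine Finset.sum_congr rfl fun P hP => ?_
  rw [(h2 P hP).1, hk, norm_zpow, Real.log_pow, Real.log_pow, Real.log_zpow]
  ring

theorem unit_ne (hL : Loc M) {x : M.F} {u : K} (h0 : u ≠ 0) (h : ∀ P, M.On x P → P.ord u = 0) :
    M.val u x ≠ 0 := fun e =>
  let ⟨P, h1, h2⟩ := hL.van x u (unit_of hL h).1 h0 e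
  h2.ne' (h P h1)

theorem unit_flat (hL : Loc M) {x : M.F} {u : K} (h0 : u ≠ 0) (h : ∀ P, M.On x P → P.ord u = 0) :
    ∀ᶠ y in 𝓝 (x : M.W), FlatAt n (fun z => Real.log (‖M.val u z‖ ^ 2)) y := by
  filter_upwards [Hol.near (unit_of hL h).1, Lo.hol_ne (unit_of hL h).1 (unit_ne hL h0 h)]
    with y h1 h2 using flatAt_log h1 h2

/-- change of the base point -/
theorem lg_near (hL : Loc M) (x : M.F) (T : Finset (Place K)) :
    ∀ᶠ y : M.F in 𝓝 x, ∀ E : Div K, E.support ⊆ T → ∃ h : M.W → ℝ,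
      (∀ᶠ z in 𝓝 (y : M.W), FlatAt n h z) ∧
        ∀ᶠ z in gen {(y : M.W)}, M.lg y E z = M.lg x E z + h z := by
  filter_upwards [(eventually_all_finset T).2 fun P _ => near_eqn hL x P] with y hy E hE
  refine ⟨fun z => ∑ P ∈ T, E P * Real.log (‖M.val (M.eqn y P / M.eqn x P) z‖ ^ 2), ?_, ?_⟩
  · filter_upwards [(eventually_all_finset T).2 fun P hP => unit_flat hL (x := y)
      (div_ne_zero (eqn_ne y P) (eqn_ne x P)) fun R hR => by
        rw [Pl.ord_div R (eqn_ne y P) (eqn_ne x P), hy P hP R (on_ct hR), sub_self]] with z hz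
    exact flat_sum T fun P hP => flat_smul _ (hz P hP)
  · filter_upwards [(eventually_all_finset T).2 fun P _ => M.at_pt ((M.val_div (M.eqn y P)
      (M.eqn x P)).and ((M.val_ne (eqn_ne y P)).and (M.val_ne (eqn_ne x P)))) y] with z hz
    rw [lg_eq_sum y E hE, lg_eq_sum x E hE, ← Finset.sum_add_distrib]
    refine Finset.sum_congr rfl fun P hP => ?_
    obtain ⟨h1, h2, h3⟩ := hz P hP
    rw [h1, norm_div, div_pow, Real.log_div (by positivity) (by positivity)]
    ring

variable (M Q) in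
/-- `D` has a metric whose local potentials have the property `Q` -/
def Met (D : Div K) : Prop :=
  ∃ G : M.W → ℝ, ∀ x : M.F, ∃ φ : M.W → ℝ, (∀ᶠ y in 𝓝 (x : M.W), Q φ y) ∧
    ∀ᶠ y in gen {(x : M.W)}, G y = M.lg x D y - φ y

theorem amp_iff : M.Amp D ↔ Met M (Spsh n) D := Iff.rfl

theorem met_congr (h : ∀ P, M.Pr P → D P = E P) : Met M Q D → Met M Q E := fun ⟨G, hG⟩ =>
  ⟨G, fun x => (hG x).imp fun _ k => ⟨k.1, k.2.mono fun y hy => by
    rw [hy, lg_congr fun P hP => h P ⟨x, hP⟩]⟩⟩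

theorem met_mono (h : ∀ u y, Q u y → Q' u y) : Met M Q D → Met M Q' D := fun ⟨G, hG⟩ =>
  ⟨G, fun x => (hG x).imp fun _ k => ⟨k.1.mono fun y => h _ y, k.2⟩⟩

theorem met_add (h : ∀ u v y, Q u y → Q' v y → Q'' (fun z => u z + v z) y) :
    Met M Q D → Met M Q' E → Met M Q'' (D + E) := fun ⟨G, hG⟩ ⟨G', hG'⟩ =>
  ⟨fun y => G y + G' y, fun x =>
    let ⟨u, h1, h2⟩ := hG x
    let ⟨v, k1, k2⟩ := hG' x
    ⟨fun z => u z + v z, (h1.and k1).mono fun y k => h u v y k.1 k.2,
      (h2.and k2).mono fun y k => by simp only [lg_add, k.1, k.2]; ring⟩⟩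

theorem met_smul {c : ℝ} (h : ∀ u y, Q u y → Q' (fun z => c * u z) y) :
    Met M Q D → Met M Q' (c • D) := fun ⟨G, hG⟩ =>
  ⟨fun y => c * G y, fun x =>
    let ⟨u, h1, h2⟩ := hG x
    ⟨fun z => c * u z, h1.mono fun y => h u y, h2.mono fun y k => by
      simp only [lg_smul, k]; ring⟩⟩

theorem met_zero : Met M (FlatAt n) (0 : Div K) :=
  ⟨fun _ => 0, fun x => ⟨fun _ => 0, .of_forall fun _ => flat_const 0,
    .of_forall fun y => by simp [Mdl.lg]⟩⟩

/-- ampleness is an open condition -/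
theorem met_open (hL : Loc M) (hA : M.Amp A) (hD : Met M (SmAt n) D) :
    ∀ᶠ ε : ℝ in 𝓝 0, M.Amp (A + ε • D) := by
  classical
  haveI : CompactSpace M.F := isCompact_iff_compactSpace.1 M.cpt
  obtain ⟨G, hG⟩ := hA
  obtain ⟨G', hG'⟩ := hD
  have key := isCompact_univ.eventually_forall_of_forall_eventually (x₀ := (0 : ℝ))
    (P := fun ε (y : M.F) => ∃ φ : M.W → ℝ, (∀ᶠ z in 𝓝 (y : M.W), Spsh n φ z) ∧
      ∀ᶠ z in gen {(y : M.W)}, G z + ε * G' z = M.lg y (A + ε • D) z - φ z) fun x _ => by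
    obtain ⟨u, h1, h2⟩ := hG x
    obtain ⟨v, k1, k2⟩ := hG' x
    have c1 : ContinuousAt (fun p : ℝ × M.F => (p.1, (p.2 : M.W))) (0, x) := by fun_prop
    have c2 : ContinuousAt (fun p : ℝ × M.F => (p.2 : M.W)) (0, x) := by fun_prop
    filter_upwards [c1.eventually (spsh_open h1 k1).eventually_nhds,
      c2.eventually (gen_near (h2.and k2)),
      continuousAt_snd.eventually (lg_near hL x (A.support ∪ D.support))] with p l1 l2 l3
    obtain ⟨h, l4, l5⟩ := l3 (A + p.1 • D) (Finsupp.support_add.trans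
      (Finset.union_subset_union_right Finsupp.support_smul))
    refine ⟨fun z => u z + p.1 * v z + h z, ?_, ?_⟩
    · filter_upwards [((Continuous.prodMk_right p.1).tendsto _).eventually l1, l4] with z a b
        using spsh_add a (flat_psd b)
    · filter_upwards [l2, l5] with z a b
      rw [b, lg_add, lg_smul, a.1, a.2]
      ring
  exact key.mono fun ε h => ⟨fun z => G z + ε * G' z, fun y => h y (mem_univ y)⟩

/-- divisors which are generated by their sections are semipositive -/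
theorem met_free (hL : Loc M) (hD : IsInt D) (h : ∀ x, M.Free D x) : Met M (PsdAt n) D := by
  classical
  haveI : CompactSpace M.F := isCompact_iff_compactSpace.1 M.cpt
  choose k hk using hD
  choose f h1 h2 h3 using h
  obtain ⟨T, hT⟩ := CompactSpace.elim_nhds_subcover
    (fun x : M.F => {y | ∀ P, M.On y P → (P.ord (f x) : ℝ) + D P = 0}) fun x => by
      filter_upwards [(eventually_all_finset (D.support ∪ (hL.fin (f x)).toFinset)).2
        fun P _ => hL.near x P] with y hy P hP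
      by_cases hP' : P ∈ D.support ∪ (hL.fin (f x)).toFinset
      · exact h3 x P (hy P hP' hP)
      · simp only [Finset.mem_union, not_or, Finsupp.notMem_support_iff, Finite.mem_toFinset,
          mem_setOf_eq, not_and, not_not] at hP'
        simp [hP'.1, hP'.2 ⟨y, hP⟩]
  refine ⟨fun z => -Real.log (∑ j : T, ‖M.val (f j) z‖ ^ 2), fun x =>
    ⟨fun z => Real.log (∑ j : T, ‖M.val (f j * eqD x D k) z‖ ^ 2), ?_, ?_⟩⟩
  · have k0 : ∀ j (P : Place K), M.On x P →
        (P.ord (f j * eqD x D k) : ℝ) = P.ord (f j) + D P := fun j P hP => by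
      rw [Pl.ord_mul P (h2 j) (eqD_ne x D k), Int.cast_add, ord_eqD hL hk hP]
    have k1 : ∀ j, f j * eqD x D k ∈ M.O x := fun j => hL.mem x _ fun P hP => by
      have := (h1 j).resolve_left (h2 j) P ⟨x, hP⟩
      rw [← k0 j P hP] at this
      exact_mod_cast this
    obtain ⟨j, hj, k2⟩ := mem_iUnion₂.1 (hT.ge (mem_univ x))
    have k3 := unit_ne hL (mul_ne_zero (h2 j) (eqD_ne x D k)) fun P hP => by
      have := k2 P hP
      rw [← k0 j P hP] at this
      exact_mod_cast this
    filter_upwards [eventually_all.2 fun j : T => Hol.near (k1 j), Lo.hol_ne (k1 j) k3] with y a b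
      using psdAt_log a ⟨⟨j, hj⟩, b⟩
  · obtain ⟨j, hj, -⟩ := mem_iUnion₂.1 (hT.ge (mem_univ x))
    filter_upwards [lg_eqD x hk, M.at_pt (M.val_ne (eqD_ne x D k)) x, M.at_pt (M.val_ne (h2 j)) x,
      eventually_all.2 fun j : T => M.at_pt (M.val_mul (f j) (eqD x D k)) x] with y a b c d
    have e : 0 < ∑ j : T, ‖M.val (f j) y‖ ^ 2 :=
      Finset.sum_pos' (fun _ _ => by positivity) ⟨⟨j, hj⟩, Finset.mem_univ _, by positivity⟩
    simp only [a, d, norm_mul, mul_pow, ← Finset.sum_mul]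
    rw [Real.log_mul e.ne' (by positivity)]
    ring

end Vale.Agent.P277Z.Ps
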