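import Vale.Agent.P277Z.Ps.Opn
import Vale.Agent.P277Z.Van.GG2

/-!
# P277Z: sections with a given jet near the fibre
-/

set_option linter.all false

open scoped Manifold ContDiff Topology ComplexOrder
open Set Filter Asymptotics
open Vale.Agent.P272.K Vale.Agent.P301.H599 Vale.Agent.P285Z
open Vale.Agent.P285.H281.FD (Bd)
open Vale.Agent.P301.H862 (powL)
open TopologicalSpace (Opens)

noncomputable section

namespace Vale.Agent.P277Z.Ps

open Pos Van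

/-- the order of vanishing does not depend on the chart -/
theorem littleO_chart {n : ℕ} {W : Type} [TopologicalSpace W] [ChartedSpace (Cm n) W]
    [IsManifold 𝓘(ℂ, Cm n) ω W] {e e' : Chart n W} {x : W} (he : At e x) (he' : At e' x)
    {f : W → ℂ} {k : ℕ} (h : (fun z => f (e'.symm z)) =o[𝓝 (e' x)] fun z => ‖z - e' x‖ ^ k) :
    (fun z => f (e.symm z)) =o[𝓝 (e x)] fun z => ‖z - e x‖ ^ k := by
  have h1 := trans_an he' he
  have h2 := h1.differentiableAt.isBigO_sub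
  have h3 := h1.continuousAt.tendsto
  simp only [e.left_inv he.2] at h2 h3
  refine ((h.comp_tendsto h3).congr' ?_ EventuallyEq.rfl).trans_isBigO (h2.norm_norm.pow k)
  filter_upwards [(tendsto_symm he).eventually (e'.open_source.mem_nhds he'.2)] with z hz
  simp only [Function.comp, e'.left_inv hz]

theorem jet_of (h : JetStmt) : JET := by
  intro n N G A L ⟨ψ, hA, hψ, hc⟩ hL x hx y hy k
  obtain ⟨O, c, hF, hO, h0, h1, h2, h3⟩ := exists_nb G ((LB_near hA).and (LB_near hL))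
  have := sigmaCompact O
  borelize ↥O
  obtain ⟨w, hw⟩ := exists_isHermitian (d := n) (X := O)
  obtain ⟨μ, hμ⟩ := exists_isVol hw
  set A' := resL hA O fun y hy => (hO hy).1
  set L' := resL hL O fun y hy => (hO hy).2
  obtain ⟨ρ, hρ⟩ := exists_isMetric L'
  have hσ : IsMetric A' fun i y => ψ i y.1 :=
    ⟨fun i e x he hi => (spsh_res (hψ i x.1 hi) e he).1, fun i j x hi hj => hc i j x.1 hi hj⟩
  have hE := JoAux.exh_sub (d := n) (t := fun y : O => ∑ i, ‖G.π y i‖ ^ 2) (c := c) isOpen_univ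
    (fun y _ => psdAt_sq fun i => hol_res (h1 y y.2 i)) (by simpa using h3)
  obtain ⟨k₀, hk⟩ := jet2 h hw hμ hE hσ (fun e x he _ => by
    obtain ⟨i, hi⟩ := A'.cover x
    rw [curvature_eq hσ he hi]
    exact (spsh_res (hψ i x.1 hi) e he).2) hρ (c⁻¹ + 1) k
  have h4 : ∀ y : O, y.1 ∈ G.F → (y ∈ univ ∧ ∑ i, ‖G.π y i‖ ^ 2 < c) ∧
      (c - ∑ i, ‖G.π y i‖ ^ 2)⁻¹ < c⁻¹ + 1 := fun y hy => by
    simp [(h2 y y.2).2 hy, h0]
  refine ⟨k₀, fun m hm i hi a ha => ?_⟩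
  obtain ⟨s, hs, hs0, hs1⟩ := hk m hm ⟨x, hF hx⟩ (h4 _ hx).1 (h4 _ hx).2 ⟨y, hF hy⟩ (h4 _ hy).1
    (h4 _ hy).2 i hi (fun z => a z.1) _ (at_chartAt _) (hol_res ha _ (at_chartAt _))
  have hΩ : IsOpen {y : O | (y ∈ univ ∧ ∑ i, ‖G.π y i‖ ^ 2 < c) ∧
      (c - ∑ i, ‖G.π y i‖ ^ 2)⁻¹ < c⁻¹ + 1} := by
    refine isOpen_iff_mem_nhds.2 fun y hy => inter_mem (hE.isOpen.mem_nhds hy.1) ?_
    exact (continuousAt_of_chart (a := fun y : O => (c - ∑ i, ‖G.π y i‖ ^ 2)⁻¹) (at_chartAt y)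
      (hE.sm _ y (at_chartAt y) hy.1).continuousAt).eventually (Iio_mem_nhds hy.2)
  refine ⟨fun i => ext (s i), sec_ext (L := L.mul (A.pow m)) (M := mulB L' (powL A' m))
    (fun _ _ => Iff.rfl) (fun _ _ _ => rfl) hΩ (fun y hy => ⟨⟨y, hF hy⟩, h4 _ hy, rfl⟩) hs,
    fun e he => ?_, fun h5 j hj => (ext_val (s j) ⟨y, hF hy⟩).trans
      (hs1 (fun h6 => h5 (congrArg Subtype.val h6)) j hj)⟩
  obtain ⟨e', k1, k2, k3⟩ := chart_fn (at_chartAt (n := n) (⟨x, hF hx⟩ : O))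
  refine littleO_chart he k1 (f := fun z => ext (s i) z - a z)
    (IsLittleO.congr' ?_ (k3 _ fun z => ext (s i) z - a z).symm EventuallyEq.rfl)
  simpa only [ext_val, ← k2] using hs0 _ (at_chartAt _)

end Vale.Agent.P277Z.Ps
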