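import Vale.Agent.P277Z.Spec2

/-!
# P277Z: the map to the base is proper near the fibre
-/

set_option linter.all false

open scoped Manifold ContDiff Topology
open Set Filter
open Vale.Agent.P272.K (Cm Chart At cHess)

noncomputable section

namespace Vale.Agent.P277Z

theorem at_chartAt {n : ℕ} {W : Type} [TopologicalSpace W] [ChartedSpace (Cm n) W] (x : W) :
    At (chartAt (Cm n) x) x := ⟨chart_mem_atlas _ _, mem_chart_source _ _⟩

theorem tendsto_symm {n : ℕ} {W : Type} [TopologicalSpace W] [ChartedSpace (Cm n) W]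
    {e : Chart n W} {x : W} (he : At e x) : Tendsto e.symm (𝓝 (e x)) (𝓝 x) := by
  have c := e.continuousAt_symm (e.map_source he.2)
  rwa [ContinuousAt, e.left_inv he.2] at c

theorem continuousAt_of_chart {n : ℕ} {W Z : Type} [TopologicalSpace W] [ChartedSpace (Cm n) W]
    [TopologicalSpace Z] {a : W → Z} {e : Chart n W} {x : W} (he : At e x)
    (h : ContinuousAt (fun z => a (e.symm z)) (e x)) : ContinuousAt a x := by
  refine (h.comp (f := e) (e.continuousAt he.2)).congr ?_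
  filter_upwards [e.open_source.mem_nhds he.2] with y hy
  simp [e.left_inv hy]

theorem Ps.hol_contAt {n : ℕ} {W : Type} [TopologicalSpace W] [ChartedSpace (Cm n) W]
    {a : W → ℂ} {x : W} (h : Hol n a x) : ContinuousAt a x :=
  continuousAt_of_chart (at_chartAt x) (h _ (at_chartAt x)).continuousAt

namespace Ps

theorem nbh : NBH := by
  intro n N G U hU
  have : LocallyCompactSpace G.W := ChartedSpace.locallyCompactSpace (Cm n) G.W
  have h1 : ∀ᶠ y in 𝓝ˢ G.F, ∀ i, Hol n (fun y => G.π y i) y :=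
    eventually_nhdsSet_iff_forall.2 fun x hx => eventually_all.2 fun i => (G.hol x hx i).near
  obtain ⟨U', hU', hF, hs⟩ := mem_nhdsSet_iff_exists.1 (inter_mem hU (h1.and G.fib))
  obtain ⟨C, hC, hFC, hCU⟩ := exists_compact_between G.cpt hU' hF
  have hc : ∀ y ∈ C, ContinuousAt G.π y := fun y hy =>
    continuousAt_pi.2 fun i => hol_contAt ((hs (hCU hy)).2.1 i)
  have hc' : ContinuousOn G.π C := fun y hy => (hc y hy).continuousWithinAt
  have key : ∀ V, IsOpen V → G.F ⊆ V → ∃ r : ℝ, 0 < r ∧ ∀ y ∈ C, ‖G.π y‖ < r → y ∈ V := by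
    intro V hV hFV
    obtain ⟨r, hr, h2⟩ := (hC.diff hV).exists_forall_le' (f := fun y => ‖G.π y‖) (a := 0)
      (hc'.mono diff_subset).norm fun y hy =>
        norm_pos_iff.2 fun h0 => hy.2 (hFV ((hs (hCU hy.1)).2.2.1 h0))
    exact ⟨r, hr, fun y hy h3 => by_contra fun h4 => absurd (h2 y ⟨hy, h4⟩) (not_le.2 h3)⟩
  obtain ⟨r, hr, h3⟩ := key _ isOpen_interior hFC
  refine ⟨interior C ∩ G.π ⁻¹' Metric.ball 0 r, r,
    (hc'.mono interior_subset).isOpen_inter_preimage isOpen_interior Metric.isOpen_ball,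
    fun y hy => ⟨hFC hy, ?_⟩, fun y hy => (hs (hCU (interior_subset hy.1))).1, hr,
    fun y hy => (hs (hCU (interior_subset hy.1))).2.1,
    fun y hy => ⟨mem_ball_zero_iff.1 hy.2, (hs (hCU (interior_subset hy.1))).2.2⟩,
    fun K hK hK' => ?_, fun V hV => ?_⟩
  · show G.π y ∈ Metric.ball 0 r
    rw [(hs (hF hy)).2.2.2 hy]
    exact Metric.mem_ball_self hr
  · have e : interior C ∩ G.π ⁻¹' Metric.ball 0 r ∩ G.π ⁻¹' K = C ∩ G.π ⁻¹' K :=
      Subset.antisymm (fun y hy => ⟨interior_subset hy.1.1, hy.2⟩) fun y hy =>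
        ⟨⟨h3 y hy.1 (mem_ball_zero_iff.1 (hK hy.2)), hK hy.2⟩, hy.2⟩
    rw [e]
    exact hC.of_isClosed_subset (hc'.preimage_isClosed_of_isClosed hC.isClosed hK'.isClosed)
      inter_subset_left
  · obtain ⟨V', hV', hFV, hVV⟩ := mem_nhdsSet_iff_exists.1 hV
    obtain ⟨r', hr', h4⟩ := key V' hV' hFV
    exact ⟨r', hr', fun y hy h5 => hVV (h4 y (interior_subset hy.1) h5)⟩

end Ps

end Vale.Agent.P277Z
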