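import Vale.Agent.P277Z.Ps.Met
import Vale.Agent.P277Z.Spec2

/-!
# P277Z, block POS: ample divisors
-/

set_option linter.all false

open scoped Manifold ContDiff Topology ComplexOrder
open Set Filter
open Vale.Agent.P272.K
open Vale.Agent.P297 (Place)
open Vale.Agent.P297Z

noncomputable section

namespace Vale.Agent.P277Z.Ps

open Pos Bi

variable {n N : ℕ} {K : Type} [Field K] [Algebra ℂ K] {M : Mdl n N K} {A B D E : Div K}

theorem amp_add_psd (hA : M.Amp A) (hD : Met M (PsdAt n) D) : M.Amp (A + D) :=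
  met_add (fun _ _ _ => spsh_add) hA hD

theorem nef_of_psd (hD : Met M (PsdAt n) D) : M.Nef D := fun _ hA =>
  add_comm _ D ▸ amp_add_psd hA hD

theorem div_int (hL : Loc M) (f : K) : IsInt (M.div f) := fun P => by
  rw [div_apply hL]
  split_ifs
  · exact ⟨_, rfl⟩
  · exact ⟨0, Int.cast_zero.symm⟩

theorem div_free (hL : Loc M) {f : K} (hf : f ≠ 0) (x : M.F) : M.Free (M.div f) x := by
  have h : ∀ P, M.Pr P → (P.ord f⁻¹ : ℝ) + M.div f P = 0 := fun P hP => by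
    rw [div_pr hL f hP, Pl.ord_inv]
    simp
  exact ⟨f⁻¹, Or.inr fun P hP => (h P hP).ge, inv_ne_zero hf, fun P hP => h P ⟨x, hP⟩⟩

theorem free_of (hB : Lbd M) (hG : GGF) (hA : M.Amp A) (hA' : IsInt A) (hD : IsInt D) :
    ∃ m₀ : ℕ, ∀ m : ℕ, m₀ ≤ m → ∀ x, M.Free (D + (m : ℝ) • A) x := by
  obtain ⟨L, s, h1, h2⟩ := hB.pos A hA' hA
  obtain ⟨L', s', h3⟩ := hB.ex D hD
  obtain ⟨m₀, h4⟩ := hG n N M.toGeo L L' h2 h3.lb
  refine ⟨m₀, fun m hm x => ?_⟩
  obtain ⟨σ, h5, h6⟩ := h4 m hm x x.2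
  have h7 := hB.mul _ _ _ _ _ _ h3 (hB.pow _ _ _ m h1)
  obtain ⟨f, h8, h9⟩ := hB.fn _ _ _ σ h7 h5
  obtain ⟨i, hi⟩ := h7.lb.cover x x.2
  exact ⟨f, h8, (hB.nz _ _ _ f σ x i h7 h5 h9 hi).1 (h6 i hi)⟩

theorem met_sm (hL : Loc M) (hA : M.Amp A) (hA' : IsInt A) (h : ∀ D, IsInt D →
    ∃ m : ℕ, ∀ x, M.Free (D + (m : ℝ) • A) x) (D : Div K) : Met M (SmAt n) D := by
  classical
  induction D using Finsupp.induction_linear with
  | zero => exact met_mono (fun _ _ k => psd_sm (flat_psd k)) met_zero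
  | add D E h1 h2 => exact met_add (fun _ _ _ => sm_add) h1 h2
  | single P c =>
    have h1 : IsInt (Finsupp.single P 1 : Div K) := fun Q => by
      rw [Finsupp.single_apply]
      split_ifs
      · exact ⟨1, Int.cast_one.symm⟩
      · exact ⟨0, Int.cast_zero.symm⟩
    obtain ⟨m, hm⟩ := h _ h1
    have h2 := met_free hL (fun Q => by
      obtain ⟨a, ha⟩ := h1 Q
      obtain ⟨b, hb⟩ := hA' Q
      exact ⟨a + m * b, by simp [ha, hb]⟩) hm
    have h3 := met_smul (c := c) (fun _ _ => sm_smul c) (met_add (fun _ _ _ k => sm_add (psd_sm k))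
      h2 (met_smul (c := -(m : ℝ)) (fun _ _ k => sm_smul _ (spsh_sm k)) hA))
    simpa using h3

theorem pos_mdl (hL : Loc M) (hB : Lbd M) (hG : GGF) (hE : ∃ A, M.Dv A ∧ IsInt A ∧ M.Amp A) :
    P277Z.Pos M where
  ex := hE
  add _ _ hA hB := amp_add_psd hA (met_mono (fun _ _ => spsh_psd) hB)
  smul _ _ hc := met_smul fun _ _ => spsh_smul hc
  tr A := ⟨met_congr fun P hP => by rw [tr_apply, if_pos hP],
    met_congr fun P hP => by rw [tr_apply, if_pos hP]⟩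
  div _ f hf hA := amp_add_psd hA (met_free hL (div_int hL f) (div_free hL hf))
  opn A D hA := by
    obtain ⟨A₀, -, h1, h2⟩ := hE
    have h3 := met_open hL hA (met_sm hL h2 h1 (fun E hE =>
      (free_of hB hG h2 h1 hE).imp fun m k => k m le_rfl) D)
    exact ((h3.filter_mono nhdsWithin_le_nhds).and (self_mem_nhdsWithin (s := Ioi 0))).exists.imp
      fun _ k => ⟨k.2, k.1⟩
  free _ h1 h2 := nef_of_psd (met_free hL h1 h2)
  gg _ _ := free_of hB hG

/-- **POS** -/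
theorem pos_of (hL : LOC n) (hS : SEC n) (hB : LBD n) (hG : GGF) : POS n := by
  intro N K _ _ M hM
  refine pos_mdl (hL N K M hM) (hB N K M hM) hG ?_
  obtain ⟨L, h⟩ := M.proj_iff.1 hM
  obtain ⟨D, s, h1, h2, h3, h4⟩ := hS N K M hM L h.choose_spec.1
  exact ⟨D, h1, h2, (hB N K M hM).amp L D s ⟨h.choose_spec.1, h3, h4⟩ h⟩

end Vale.Agent.P277Z.Ps
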