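import Vale.Agent.P277Z.Ps.Nbh
import Vale.Agent.P277Z.Pos.MSpec
import Vale.Agent.P284.H213.KL.SK1

/-!
# P277Z: sums of squares of holomorphic functions
-/

set_option linter.all false

open scoped Manifold ContDiff Topology ComplexOrder InnerProductSpace
open Set Filter
open Vale.Agent.P272.K

noncomputable section

namespace Vale.Agent.P277Z.Ps

open Vale.Agent.P284.H213.KL Pos

variable {n : ℕ} {ι : Type} [Fintype ι] {f : ι → Cm n → ℂ} {z : Cm n}

theorem two {u : Cm n → ℝ} (h : ContDiffAt ℝ ∞ u z) : ContDiffAt ℝ 2 u z := h.of_le (by norm_cast)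

theorem quad_lev (u : Cm n → ℝ) (z β : Cm n) : (quad (cHess u z) β).re = lev u z β := by
  unfold quad lev
  congr 1
  refine Finset.sum_congr rfl fun j _ => Finset.sum_congr rfl fun k _ => ?_
  rw [mul_assoc]

theorem an_vec (h : ∀ i, AnalyticAt ℂ (f i) z) :
    AnalyticAt ℂ (fun y => (WithLp.toLp 2 fun i => f i y : EuclideanSpace ℂ ι)) z :=
  ((EuclideanSpace.equiv ι ℂ).symm.analyticAt _).comp (analyticAt_pi_iff.2 h)

theorem sq_vec (y : Cm n) :
    ‖(WithLp.toLp 2 fun i => f i y : EuclideanSpace ℂ ι)‖ ^ 2 = ∑ i, ‖f i y‖ ^ 2 :=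
  EuclideanSpace.norm_sq_eq _

theorem sm_sq (h : ∀ i, AnalyticAt ℂ (f i) z) : ContDiffAt ℝ ∞ (fun y => ∑ i, ‖f i y‖ ^ 2) z := by
  simpa only [sq_vec] using contDiffAt_normSq (an_vec h)

theorem psd_sq (h : ∀ i, AnalyticAt ℂ (f i) z) :
    (cHess (fun y => ∑ i, ‖f i y‖ ^ 2) z).PosSemidef := by
  refine posSemidef_of_quad (C2.cHess_isHermitian (two (sm_sq h))) fun β => ?_
  have := lev_normSq (an_vec h) β
  simp only [sq_vec] at this
  rw [quad_lev, this]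
  positivity

theorem sq_pos (h0 : ∃ i, f i z ≠ 0) : 0 < ∑ i, ‖f i z‖ ^ 2 := by
  obtain ⟨i, hi⟩ := h0
  exact Finset.sum_pos' (fun _ _ => by positivity) ⟨i, Finset.mem_univ i, by positivity⟩

theorem sm_log (h : ∀ i, AnalyticAt ℂ (f i) z) (h0 : ∃ i, f i z ≠ 0) :
    ContDiffAt ℝ ∞ (fun y => Real.log (∑ i, ‖f i y‖ ^ 2)) z := (sm_sq h).log (sq_pos h0).ne'

theorem psd_log (h : ∀ i, AnalyticAt ℂ (f i) z) (h0 : ∃ i, f i z ≠ 0) :
    (cHess (fun y => Real.log (∑ i, ‖f i y‖ ^ 2)) z).PosSemidef := by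
  refine posSemidef_of_quad (C2.cHess_isHermitian (two (sm_log h h0))) fun β => ?_
  have h1 := lev_normSq (an_vec h) β
  have h2 := dd_normSq (an_vec h) β
  have h3 := pow_le_pow_left₀ (norm_nonneg _) (norm_inner_le_norm (𝕜 := ℂ)
    (WithLp.toLp 2 fun i => f i z : EuclideanSpace ℂ ι)
    (fderiv ℂ (fun y => (WithLp.toLp 2 fun i => f i y : EuclideanSpace ℂ ι)) z β)) 2
  have hp := sq_pos h0
  simp only [sq_vec] at h1 h2
  rw [mul_pow, sq_vec, ← h1, ← h2] at h3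
  rw [quad_lev, lev_log (two (sm_sq h)) hp]
  generalize ∑ i, ‖f i z‖ ^ 2 = x at hp h3
  rw [sub_nonneg, inv_mul_le_iff₀ (by positivity), sq x, mul_assoc, mul_inv_cancel_left₀ hp.ne']
  exact h3

variable {W : Type} [TopologicalSpace W] [ChartedSpace (Cm n) W] {a : ι → W → ℂ} {x : W}

theorem psdAt_sq (h : ∀ i, Hol n (a i) x) : PsdAt n (fun y => ∑ i, ‖a i y‖ ^ 2) x := fun e he =>
  ⟨sm_sq fun i => h i e he, psd_sq fun i => h i e he⟩

theorem psdAt_log (h : ∀ i, Hol n (a i) x) (h0 : ∃ i, a i x ≠ 0) :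
    PsdAt n (fun y => Real.log (∑ i, ‖a i y‖ ^ 2)) x := fun e he => by
  have h1 : ∃ i, a i (e.symm (e x)) ≠ 0 := by rwa [e.left_inv he.2]
  exact ⟨sm_log (fun i => h i e he) h1, psd_log (fun i => h i e he) h1⟩

theorem flatAt_log {b : W → ℂ} (h : Hol n b x) (h0 : b x ≠ 0) :
    FlatAt n (fun y => Real.log (‖b y‖ ^ 2)) x := fun e he => by
  have h1 : b (e.symm (e x)) ≠ 0 := by rwa [e.left_inv he.2]
  exact ⟨(contDiffAt_normSq (h e he)).log (by positivity),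
    cHess_log_norm_sq (h e he).contDiffAt h1⟩

end Vale.Agent.P277Z.Ps
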